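import Crest.Agent.X212.Nt66.Defs
import Crest.Agent.X212.Lns95.As0

/-!
# Row 212, NT-ABX (helper52): the point of a chart of a lens face is abelian inside
-/

set_option autoImplicit false
set_option linter.unusedSectionVars false
noncomputable section
open scoped Manifold ContDiff Topology Real
open MeasureTheory Set Function Filter
open Crest.Agent.R208.F (Ext)

namespace Crest.Agent.X212.Abx52
open An M Nd18 Qab60 Hol14 Lns95
open Abel74 (fm fF)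
open Eqv71 (cj ad0)

section gauge
variable {E : Type} [NormedAddCommGroup E] [NormedSpace ℝ E] [FiniteDimensional ℝ E]
  [MeasurableSpace E] [BorelSpace E]
  {HM : Type} [TopologicalSpace HM] {I : ModelWithCorners ℝ E HM} [I.Boundaryless]
  {M : Type} [TopologicalSpace M] [ChartedSpace HM M] [IsManifold I ∞ M] [T2Space M]
  [MeasurableSpace M] [BorelSpace M] [SecondCountableTopology M] {lam : Type} [Fintype lam]
  {ι : Type} [Fintype ι] {B : Base M ι lam} {G : Geo I M ι lam} {Ω : Set M} {r : ℕ}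
  {c c' : Cfg M ι lam r} {ξ : M → c.m.A} {u : M → CL c.m.V c'.m.V} {ζ : Circle} {k : Cut M lam}

/-- abelian points are transported by equivalences -/
theorem ab_tr (hB : B.OK I) (hG : G.OK B) (A : Ab B G Ω c ξ) (a : c'.Adm B G)
    (e : Mod61.EqOn B G.F Ω c c' u ζ) :
    ∃ ξ', Ab B G Ω c' ξ' ∧ fm G.F c'.m c'.W ξ' = fm G.F c.m c.W ξ := by
  have o := A.rd.op
  have l := (Eqv71.lg_refl hB hG o).of_ceq (ad0 A.adm) (ad0 a) e
  have k := A.rd.toRedOn.iso l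
  have v : ∀ x ∈ Ω, Ω.indicator (fun x => cj (u x) (ξ x)) =ᶠ[𝓝 x] fun x => cj (u x) (ξ x) :=
    fun x hx => mem_of_superset (o.mem_nhds hx) fun _ hy => indicator_of_mem hy _
  have R : Loc8.Rd G.F c'.m c'.W Ω (Ω.indicator fun x => cj (u x) (ξ x)) :=
    ⟨⟨fun x hx => (k.sm x hx).congr_of_eventuallyEq (v x hx),
      fun x hx => (v x hx).eq_of_nhds ▸ k.mem x hx, fun x hx => (v x hx).eq_of_nhds ▸ k.sq x hx,
      fun x hx b => (Wz78.nab_congr b (v x hx)).trans (k.par x hx b)⟩, o,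
      fun x hx => indicator_of_notMem hx _⟩
  refine ⟨_, ⟨a, R, fun x hx => (e.Φ x hx).trans (by simp [A.z x hx, cs])⟩, funext fun x => ?_⟩
  by_cases hx : x ∈ Ω
  · have := fun a b => Abel74.fF_iso l hx (A.rd.mem x hx) a b
    simp only [fF] at this
    simp only [fm, Num57.fm2_apply, fF, indicator_of_mem hx, this]
  · rw [R.fm_off hx, A.rd.fm_off hx]

theorem ch_of (hB : B.OK I) {m : Md M ι lam} (H : m.OK I B) {a a' : k.H B m}
    (e : k.Eqv k B B m.p a a') : ∃ η : Circle, a' = cH m B k (csE m.J η) a :=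
  have cp := cp_pp hB H k.x0
  e.imp fun η e => Subtype.ext <| e.trans <| ((Cnt93.LU_LU _ _ _).symm.trans
    (congrArg _ (Cnt93.mem_p H a))).trans
      (It.rH_coe ⟨cp, cp, csE_comm rfl _, csE_comm cp.comm _⟩ a).symm

end gauge

section cyl
variable {Y : Mf 3} [CompactSpace Y.M] {κ : Type} [Fintype κ] {lam : Type} [Fintype lam]
  {D : YD Y.I Y.M κ lam} {Z : Mf 4} {B : Base Z.M (Option κ) lam} {G : Geo Z.I Z.M (Option κ) lam}
  {K : Nk D B G} {Ω : Set Z.M} {w f : Z.M → Ext Z.E} {k : Cut Z.M lam}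

theorem flux_sl (hc : ClsStmt D Z.I Z.M) (i : Ins K Ω w) (hk : k.OK B G.F) (hs : k.supp ⊆ Ω)
    (fw : |flux Z.I k w| = 4 * π) (S : Sl B G Ω f) : |flux Z.I k f| = 2 * π := by
  obtain ⟨⟨ε, _, _, b, hε, -, -, fb, -, e, -⟩, -⟩ := hc B _ K Ω w _ i S
  rw [e, flux_add G.F (Csm97.dat hk) (fun x _ => (i.cs.cl.sm x trivial).smul _)
    fun x _ => fb.d.sm x, flux_smul, flux_dM G.F (Csm97.dat hk) (fun x _ => fb.sm x)
    fun x _ => .of_forall fb.dg, add_zero, abs_mul, fw,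
    show |ε / 2| = 1 / 2 by rcases hε with rfl | rfl <;> norm_num [abs_div]]
  ring

end cyl

section scene
open G75 Ins26 Rf65
variable {κ lam : Type} [Fintype κ] [Fintype lam] [DecidableEq lam] {Lm : LM κ lam}
  {S : Scene Lm} {D : S.Dat} {i : S.L} {Wi : Type} {r n : ℕ}
  {J : Job Wi (D.Λ i) (S.A ⊕ Unit) S.ls r n} {l : S.ls} {σ : Cel (S.A ⊕ Unit)} {c : S.M.Cl}

theorem sml_un (H : Lv0 Lm) (g : Sg J l σ c) : Sml fun Adm => ∀ q, Adm q → Lns95.Un J l σ c q := by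
  have hJ := g.ok
  obtain ⟨C, h0, hC⟩ := H.uni _ (J.xs l).D (D.W.Z c) _ _ Wi
    {s | s ∈ Job.cl σ ∧ J.Ov σ c s} _ (J.G c) _ (J.cut c l) (fun w => (J.tp c).tc (J.tc l w))
    (fun s hs => let h := g.geo H hs.2
      ⟨hJ.ct σ g.mem s hs.2.1 c hs.2.2 l g.cut_in.1, fun _ k => h.2.2 _ k.2, _, h.1⟩) g.cut_in.2
  choose b hb using fun w => (isCompact_Icc (a := (0 : S.A ⊕ Unit → ℝ))
    (b := 1)).exists_bound_of_continuousOn (hJ.cc l w).continuous.continuousOn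
  refine ⟨fun w => |b w| * C w, fun w => mul_nonneg (abs_nonneg _) (h0 w),
    fun _ hA q hq s h1 h2 => hC s ⟨h1, h2⟩ q.support
      (fun w => q w * J.cc l w s) (fun w _ k => hJ.tc_in g.mem h2 (right_ne_zero_of_mul k))
      (lt_of_le_of_lt ?_ (hA q hq)) _ fun _ => rfl⟩
  rw [sub_zero]
  refine Finset.sum_le_sum fun w _ => ?_
  rw [abs_mul, mul_assoc]
  exact mul_le_mul_of_nonneg_left (mul_le_mul_of_nonneg_right ((hb w s
    ⟨fun a => (h1.2 a).1, fun a => (h1.2 a).2⟩).trans (le_abs_self _)) (h0 w)) (abs_nonneg _)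

variable {δ : ℝ} {X : Finset S.A} {Adm : (Wi →₀ ℝ) → Prop} {n₀ : ℤ} {q : Wi →₀ ℝ} {y : J.Obc c}
  {b : Bp J c} {E : Nt66.EW J c X σ l b δ} {x : Mod61.Pnt E.o r} {ψ : E.K}
  (C : Nt66.Cx X σ Adm n₀ q y l E x ψ)
include C

theorem sg : Sg J l σ c := by
  obtain ⟨a₀, j, T, g, h⟩ := C.gx
  have e := C.fa.1.2.1
  have k := g.nil l fun k => h _ k (e.ge rfl)
  exact ⟨g.sc, g.ok, C.h1.mem, e, by rw [g.hd]; exact if_pos (.inr (.inl l.2)), by rw [g.ct],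
    by rw [g.nb], ⟨k.1.J0, k.1.J2, congrFun k.2⟩, fun s h1 h2 w => (g.van σ C.h1.mem s h1 l h2 w).1⟩

theorem pc : S.M.sys.Piece c.1 (hp l.1 false) := C.cs.pok.pc _ (.inr rfl)

theorem pc_eq : D.W.pc c (hp l.1 false) = Om D c l :=
  pc_in (sg C).sc l.2 (if_pos rfl) (pc C).toIsReg _ c

theorem om_eq : Nt66.Om D c l = Om D c l := (An.un_one _ _ _).trans (pc_eq C)

/-- the inside of the object -/
theorem ab_y (H : Lv0 Lm) : ∃ ξ, Ab (J.B c) (J.G c y.s) (Om D c l) y.x ξ ∧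
    Sl (J.B c) (J.G c y.s) (Om D c l) (fm (J.G c y.s).F y.x.m y.x.W ξ) := by
  have g := sg C
  have h := C.sol
  have h3 := pc_eq C
  obtain ⟨⟨w, I, -⟩, -⟩ := g.geo H h.ov
  have h4 := C.fa.2.2
  have k := g.qt h.cell h.ov (pc C) (if_pos rfl)
  obtain ⟨z, hz⟩ := (S.M.sys.w l).ne false
  rw [Job.Obc.TA, h3] at h4
  obtain ⟨ξ, R⟩ := Loc8.exists_rd I.hB I.hG h.sol.toAdm I.cl.isOpen ⟨z, hz.2, rfl⟩
    (I.sc.2 _ ⟨z, hz.2, rfl⟩) h4
  have A : Ab _ _ _ y.x ξ :=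
    ⟨h.sol.toAdm, R, fun z hz => by_contra fun e => C.fa.2.1 ⟨z, h3 ▸ hz, e⟩⟩
  exact ⟨ξ, A, sl_of I.hB I.hG I.cl A I.tam.ok (fun z hz => by
    simpa [Cfg.eC, (k q _ z (h3 ▸ hz)).2] using h.sol.C z) h.int
    (h3 ▸ (C.q4 q y l C.adm h C.fa C.reg).1)⟩

theorem abx_at (H : Lv0 Lm) (un : Lns95.Un J l σ c q) : Nt66.Abx C := by
  have g := sg C
  have h := C.sol
  obtain ⟨⟨w, I, fw⟩, -⟩ := g.geo H h.ov
  obtain ⟨ξ, A, L⟩ := ab_y C H
  obtain ⟨u, ζ, e, -⟩ := C.gd.ch.rep.e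
  have a : Eqv71.Ad0 x.cfg (J.B c) (J.G c (b.θ _ _ x.t)) := x.ad0 C.cs.F
  rw [C.θ] at e a
  obtain ⟨ξ', A', f⟩ := ab_tr I.hB I.hG A ⟨a.ok, a.conn, a.sm, a.pos,
    A.adm.z.imp id fun k => (Eqv71.ceq_norm_z e).trans k⟩
    (Wrd81.ceq_mono e (om_eq C ▸ biUnion_subset_biUnion_left Nt66.sub_in))
  rw [← f] at L
  rw [Nt66.Abx, om_eq C]
  exact ⟨ξ', A', L, flux_sl (H.cls _ _ _) I (g.ok.ct σ g.mem _ h.ov.1 c h.inf l g.cut_in.1)
    g.cut_in.2 fw L, fun a₁ a₂ s₁ s₂ => ch_of I.hB a.ok ((un _ h.cell h.ov _ _ A' L).2 _ _ _ A'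
      ⟨.refl (Pj41.OK.on a.ok _), (Pj41.IsConn.on a.conn _).par0_refl⟩ _ _ s₁ s₂)⟩

omit C in
/-- **LEAF ABX** -/
theorem abx (H : Lv0 Lm) : Nt66.NfStmt Lm Nt66.Abx := fun S _ _ _ _ _ J _ _ _ _ _ c _ _ _ =>
  ⟨1, one_pos, fun _ _ => (Sml.all (I := Cel (S.A ⊕ Unit) × S.ls) (P := fun p Adm =>
    Sg J p.2 p.1 c → ∀ q, Adm q → Lns95.Un J p.2 p.1 c q) fun p => (em _).elim
      (fun g => (sml_un H g).mono fun _ k _ => k) fun g => .of fun _ k => (g k).elim).mono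
    fun _ k σ q _ l _ _ _ _ C => abx_at C H (k (σ, l) (sg C) q C.adm)⟩

end scene

end Crest.Agent.X212.Abx52
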