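import Crest.Agent.X212.Nt66.Lv
import Crest.Agent.X212.Abx52.Main
import Crest.Agent.X212.Mp86.St
import Crest.Agent.X212.Cob34.Xi

/-!
# Row 212, NT-CX, NT-SOP, NT-RWJ (helper52): glue at a lens face
-/

set_option autoImplicit false
set_option linter.unusedSectionVars false
noncomputable section
open scoped Manifold ContDiff Topology Real InnerProductSpace
open MeasureTheory Set Function Filter

namespace Crest.Agent.X212.Abx52
open An M Nd18 Mod61 Rf65 Pte3 Hol14 Nt66 Mp86.St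
open An.Job (Sol SolOn)

section job
variable {Wi : Type} {X : Mf 4} {A κ lam : Type} [Fintype A] [Fintype κ] [Fintype lam]
  [DecidableEq lam] {M : Mark X A κ} {W : World M} {N : ML M lam} {Λ : Lns W N}
  {A' h : Type} [Fintype A'] [DecidableEq A'] [Fintype h] {r n : ℕ}
  {J : Job Wi Λ A' h r n} {c : M.Cl} {σ : Cel A'} {s s' : A' → ℝ} {a : A'} {x : A}
  {p q : Wi →₀ ℝ} {i : h}

theorem un_two (e : c.1 = {x}) : W.un c {hp x true, hp x false} = univ := eq_univ_of_forall fun z =>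
  let ⟨_, h1, h2⟩ := Cyl58.exists_pc W.toCaps z
  mem_biUnion (eq_hp (e ▸ h1)) h2

theorem σc_add (z : Cfg (W.Z c).M (Option κ) (lam ⊕ lam) r) :
    J.σc c (q + p) s i z = J.σc c q s i z + J.σc c p s i z :=
  Finsupp.sum_add_index' (fun _ => by rw [zero_mul, zero_smul]) fun _ _ _ => by rw [add_mul, add_smul]

theorem σc_zero (k : ∀ w ∈ p.support, J.cc i w s = 0) (z : Cfg (W.Z c).M (Option κ) (lam ⊕ lam) r) :
    J.σc c p s i z = 0 := Finset.sum_eq_zero fun w hw => by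
  beta_reduce
  rw [k w hw, mul_zero, zero_smul]

theorem σc_cm {z : Cfg (W.Z c).M (Option κ) (lam ⊕ lam) r}
    {T : CL ((J.cut c i).H (J.B c) z.m) ((J.cut c i).H (J.B c) z.m)} (k : ∀ w, J.cc i w s ≠ 0 →
      Commute (z.tc (J.B c) (J.G c s).F (J.cut c i) ((J.tp c).tc (J.tc i w))) T) :
    Commute (show CL _ _ from J.σc c q s i z) T := Commute.sum_left _ _ _ fun w _ => by
  beta_reduce
  by_cases e : J.cc i w s = 0
  · rw [e, mul_zero, zero_smul]; exact Commute.zero_left _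
  · exact (k w e).smul_left _

theorem σc_cpt (z : Cfg (W.Z c).M (Option κ) (lam ⊕ lam) r) : IsCompactOperator (J.σc c q s i z) :=
  cpt_sum (A := fun w => (q w * J.cc i w s) • z.tc (J.B c) (J.G c s).F (J.cut c i)
    ((J.tp c).tc (J.tc i w))) _ fun w _ => (cpt_tc _).smul (q w * J.cc i w s)

theorem τ_add (k : ∀ w ∈ p.support, J.co w s = 0 ∧ J.Nn w s) : J.τ c (q + p) s = J.τ c q s := by
  have e := fun w hw z => Wrd81.τw_eq (c := c) (k w hw).2 z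
  have f : ∀ {V : Type} [AddCommGroup V] (g : Wi → ℝ → V), (∀ w, g w 0 = 0) →
      (∀ w a b, g w (a + b) = g w a + g w b) → (∀ w ∈ p.support, ∀ a, g w a = 0) →
      (q + p).sum g = q.sum g := fun g h1 h2 h3 => by
    rw [Finsupp.sum_add_index' h1 h2, add_eq_left]
    exact Finset.sum_eq_zero fun w hw => h3 w hw _
  unfold Job.τ fsum
  congr 2 <;> funext z v <;> refine f _ (fun _ => by simp) (fun _ _ _ => by simp [add_smul, add_mul])
    fun w hw a => by simp [e w hw z, (k w hw).1]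

variable (hJ : J.OK) (hσ : σ ∈ J.𝒦) (hs : J.Ov σ c s) (ha : J.hd a = some x)
include hJ hσ hs ha

theorem s_one (hx : x ∈ c.1) : s a = 1 :=
  let ⟨_, h1, h2⟩ := hJ.inf σ hσ s hs.1 x (hs.2.ge hx); hJ.inj _ _ _ h1 ha ▸ h2

theorem cmp_of (k : σ a = none) (h0 : x ∉ c.1) : ∀ x' ∈ c.1, M.sys.Cmp x x' := fun x' hx' => by
  obtain ⟨a', h1, h2⟩ := hJ.inf σ hσ _ hs.1 x' (hs.2.ge hx')
  obtain ⟨_, h3, h4⟩ := hJ.lin
  have ne : a' ≠ a := fun e => h0 (Option.some.inj ((e ▸ h1).symm.trans ha) ▸ hx')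
  have d : update s a 1 ∈ J.dom σ := ⟨fun a'' v e => (update_of_ne (fun k' => by
      simp [k', k] at e) _ _).trans (hs.1.1 a'' v e), fun a'' h3 => by
    rcases eq_or_ne a'' a with rfl | k'
    · simp
    · rw [update_of_ne k']; exact hs.1.2 a'' h3⟩
  have e1 : update s a 1 a' = 1 := (update_of_ne ne _ _).trans h2
  refine (hJ.par σ hσ _ d).2 ?_ ?_ fun e => h0 (e ▸ hx')
  · rw [mem_support, (h4 _ _ ha _ (by simpa using h3.le)).1, update_self]; exact one_ne_zero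
  · rw [mem_support, (h4 _ _ h1 _ (h3.le.trans e1.ge)).1, e1]; exact one_ne_zero

end job

section scene
open G75 Ins26 Jb7
variable {κ lam : Type} [Fintype κ] [Fintype lam] [DecidableEq lam] {Lm : LM κ lam}

/-- **LEAF CX** -/
theorem cx : CxStmt Lm := fun S D i _ _ _ J X a₀ j _ T c g h0 _ => ⟨1, one_pos, fun δ _ => .of
    fun _ σ ls H lx q4 q y a ha hy fa rg dm => by
  have e := fa.1.2.1
  have k : a ∈ S.ls := ls ⟨e.ge rfl, fa.1.2.2.1⟩
  refine ⟨k, fun b E x ψ gd => ⟨⟨a₀, j, T, g, h0⟩, ls, H, lx, q4, ha, hy, fa, rg, dm, gd,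
    ⟨⟨H.ok, H.mem, H.loc.pok σ H.mem c _ _ _ (fun _ k => k.elim (· ▸ hp_mem e true)
      (· ▸ hp_mem e false)) subset_rfl⟩, gd.ch.ok, gd.ch.ov, gd.sm⟩, funext fun a' => ?_,
    ⟨fun ⟨_, z, _, hz, _⟩ => hz fun β hβ => ?_⟩, trivial, ?_⟩⟩
  · by_cases v : a' ∈ (pW J c (shX S X) σ a).V
    · exact (θ_eq gd.ch.rep.s a' v).symm
    rw [θ_off v]
    rcases e' : σ a' with _ | t
    swap
    · exact (gd.ch.ov.1.1 a' t e').trans (hy.cell.1 a' t e').symm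
    by_cases w : ∃ x, J.hd a' = some x ∧ x ∈ c.1
    · obtain ⟨x, h1, h2⟩ := w
      exact (s_one H.ok H.mem gd.ch.ov h1 h2).trans (s_one H.ok H.mem hy.ov h1 h2).symm
    refine (v ⟨e', fun x h1 h2 => w ⟨x, h1, h2⟩, (em _).imp_right fun h1 => ?_⟩).elim
    obtain ⟨x, h2, rfl⟩ : ∃ x ∈ hard S X, a' = .inl x := by simpa [shX] using h1
    have h3 : J.hd (.inl x) = some x := by rw [g.hd]; exact if_pos h2
    have := S.M.con
    obtain ⟨ρ, ⟨h4, h5⟩, -⟩ := S.M.sys.existsUnique_inn c.2 (fun k => w ⟨x, h3, k⟩)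
      (cmp_of H.ok H.mem hy.ov h3 e' fun k => w ⟨x, h3, k⟩)
    exact ⟨ρ, eq_hp (e ▸ h4), x, h5, h3⟩
  · exact (((H.wl z.1 _ 0 (H.ok.xs _).1.yd (H.pj.nil _ z.1.2).1 (lx.1 _ (ls z.1.2))).2.1 β
      hβ).1).trans (zero_mul _)
  · refine subset_iUnion₂_of_subset (hp a false) (.inr rfl) ?_
    rw [Lns95.U_in g.sc k (if_pos rfl) (piece_hp false).toIsReg, g.nb]
    exact subset_rfl⟩

variable {S : Scene Lm} {D : S.Dat} {i : S.L} {Wi : Type} {r n : ℕ}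
  {J : Job Wi (D.Λ i) (S.A ⊕ Unit) S.ls r n} {c : S.M.Cl} {δ : ℝ} {X : Finset S.A}
  {σ : Cel (S.A ⊕ Unit)} {Adm : (Wi →₀ ℝ) → Prop} {n₀ : ℤ} {q : Wi →₀ ℝ} {y : J.Obc c} {l : S.ls}
  {b : Bp J c} {E : EW J c X σ l b δ} {x : Pnt E.o r} {ψ : E.K}
  (C : Cx X σ Adm n₀ q y l E x ψ)
include C

theorem unc : J.unc c = univ := (C.h1.num q y l C.adm C.sol C.fa.1).1

theorem H_univ : y.H = univ := (C.sol.H_eq C.fa.1.2.2.2.1.1).trans (unc C)

theorem solOn : SolOn (pW J c (shX S X) σ l.1) σ q y :=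
  have h := C.sol
  ⟨h.cell, h.inf, h.sol.toAdm, fun _ hz => (hz ((un_two C.fa.1.2.1).ge trivial)).elim,
    fun z _ => h.sol.D z, fun z _ => h.sol.C z, h.sol.S, fun i _ => h.cut i ((H_univ C).ge trivial),
    fun a b ha _ => h.lim a b ha, fun a ha b _ => h.crit a ha b, h.int.integrableOn⟩

theorem cut_ok (j : S.ls) : (J.cut c j).OK (J.B c) (J.G c y.s).F :=
  C.h1.ok.ct σ C.h1.mem _ C.sol.ov.1 c C.sol.inf j ((unc C).ge trivial)

theorem ad_x : Eqv71.Ad0 x.cfg (J.B c) (J.G c y.s) := C.θ ▸ x.ad0 C.cs.F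

theorem sol_x : (J.cut c l).Sol (J.B c) (J.G c y.s).F (J.σc c q y.s l) x.cfg (ψ C.il) := by
  obtain ⟨u, ζ, e, f⟩ := C.gd.ch.rep.e
  have := C.cs.cut_sol (solOn C) C.gd.ch.rep.s e (f C.il)
  rwa [C.θ] at this

theorem sop_at : Sop C := fun p hp h0 => by
  have h := C.sol
  have t : J.τ c (q + p) y.s = J.τ c q y.s := τ_add fun w hw => ⟨(hp w hw).1, (hp w hw).2.2⟩
  refine ⟨h.cell, h.inf, t ▸ h.sol, h.sub, fun j hj => ⟨(h.cut j hj).1, (h.cut j hj).2.trans ?_⟩,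
    h.drop, h.lim, h.crit, fun a ha => ?_, h.int, h.lev⟩
  · rw [σc_add, add_apply, left_eq_add]
    by_cases e : j = l
    · subst e
      obtain ⟨u, ζ, e, f⟩ := C.gd.ch.rep.e
      have k := C.cs.cr (solOn C) C.gd.ch.rep.s e
      rw [C.θ] at k
      have g := C.h1.ok.kt C.h1.mem h.ov C.cs.cl
      have R := Cnt93.rel_refl g.hB (C.cs.cut_sub C.il)
      obtain ⟨η, f⟩ := (Cnt93.eqv_iff (k.lm g.toKC) R).1 (f C.il)
      refine Cnt93.inj_Rh (k.lm g.toKC) R η ?_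
      rw [map_zero, ← C.h1.ok.σc_nat C.h1.mem h.ov C.cs.cl ((unc C).ge trivial)
        (C.cs.cut_sub C.il) p k η, ← f]
      exact h0
    · rw [σc_zero fun w hw => (hp w hw).2.1 j e]
      rfl
  · have : ∀ q, (J.xs a).q q = 0 := fun q => by simp [Xs.q, (C.h1.pj.nil a ha).2]
    rw [this, ← this q]
    exact h.brk a ha

theorem rwj_at (hR : RowStmt (D.W.Z c).I (D.W.Z c).M (Option κ) (lam ⊕ lam)) : Rwj C :=
  fun ξ ⟨A, _, fl, uq⟩ => by
  have h := C.sol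
  have hJ := C.h1.ok
  have hG := hJ.G_ok C.h1.mem h.ov
  have hs : (J.cut c l).supp ⊆ Nt66.Om D c l := om_eq C ▸ (sg C).cut_in.2
  have cm : ∀ {η} (_ : Qab60.Ab (J.B c) (J.G c y.s) (Nt66.Om D c l) x.cfg η),
      Commute (Nt66.sg y.s l q x) (JH E.o.m.J (E.o.m.pp (J.B c) (J.cut c l).x0)) ∧
      Commute (Nt66.sg y.s l q x) (cH E.o.m (J.B c) (J.cut c l)
        (ph (J.B c) (J.cut c l) (J.G c y.s).F (η (J.cut c l).x0))) := fun {η} A => by
    have k := fun w (hw : J.cc l w y.s ≠ 0) => Cob34.xi _ _ _ _ r _ _ _ _ x.cfg η _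
      ((J.tp c).tc (J.tc l w)) ((D.Λ i).B_ok _ _) hG (hJ.tame C.h1.mem h.ov)
      (Job.isClopen_un (P := {hp l.1 false}) fun _ k => mem_singleton_iff.1 k ▸ pc C) A (cut_ok C l) (hs x0_mem)
      (hJ.tc_in C.h1.mem h.ov hw).choose_spec
    exact ⟨σc_cm fun w z => (k w z).1, σc_cm fun w z => (k w z).2⟩
  have := hR _ _ E.o.m x.cfg.W _ ξ (Nt66.sg y.s l q x) (ψ C.il) ((D.Λ i).B_ok _ _) hG E.o.ok
    A.adm.conn (cut_ok C l) (A.rd.toRedOn.mono hs) fl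
    (σc_cpt x.cfg) (cm A).1 (cm A).2
    (cm (Lns95.ab_neg A)).2 (sol_x C).1 (sol_x C).2 fun ψ' h1 h2 => uq _ _ (sol_x C) ⟨h1, h2⟩
  unfold EC.row
  rw [C.θ]
  exact this

omit C

/-- **LEAF SOP** -/
theorem sop : NfStmt Lm Sop := fun _ _ _ _ _ _ _ _ _ _ _ _ _ _ _ _ =>
  ⟨1, one_pos, fun _ _ => .of fun _ _ _ _ _ _ _ _ _ C => sop_at C⟩

/-- **LEAF RWJ** -/
theorem rwj (hR : ∀ Z : Mf 4, RowStmt Z.I Z.M (Option κ) (lam ⊕ lam)) : NfStmt Lm Rwj :=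
  fun _ _ _ _ _ _ _ _ _ _ _ _ _ _ _ _ =>
    ⟨1, one_pos, fun _ _ => .of fun _ _ _ _ _ _ _ _ _ C => rwj_at C (hR _)⟩

end scene

end Crest.Agent.X212.Abx52
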