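import Crest.Agent.X212.Sym93.Inf
import Crest.Agent.X212.Pj41.LinLim
import Crest.Agent.X212.Dfl49.Prim

/-! Row 212 (helper52): gauge parameters with decaying derivative on a piece with one end. -/

set_option autoImplicit false
set_option linter.unusedSectionVars false
set_option maxHeartbeats 400000
noncomputable section
open scoped Manifold ContDiff Topology InnerProductSpace
open MeasureTheory Set Function Filter Real

namespace Crest.Agent.X212.Ng52
open An An.Pre Sob92 Prm93 Mod61 Nd18 Eqv71 Nk89 Ker54 Cyf70 End14 Bki64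
open Grp76 (Nice hs_iff Pg_iff)
open Wz78 (nab SA adcL)
open Rf65 (ParY dz)
open Dfl49 (nr x1 x2 x1_apply x2_apply)

variable {E : Type} [NormedAddCommGroup E] [NormedSpace ℝ E] [FiniteDimensional ℝ E]
  [MeasurableSpace E] [BorelSpace E]
  {HM : Type} [TopologicalSpace HM] {I : ModelWithCorners ℝ E HM} [I.Boundaryless]
  {M : Type} [TopologicalSpace M] [ChartedSpace HM M] [IsManifold I ∞ M]
  [MeasurableSpace M] [T2Space M] [BorelSpace M] [SecondCountableTopology M]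
  {κ : Type} [Fintype κ] {lam : Type} [Fintype lam]
  {T : Type} [NormedAddCommGroup T] [NormedSpace ℝ T]
  {𝔉 : Fam I M (Option κ) lam T} {δ R : ℝ} {o : Ref 𝔉} {r : ℕ} {ξ ζ : M → o.m.A}

theorem D_pair {N : Type} [NormedAddCommGroup N] [NormedSpace ℝ N] {ι : Type} [Fintype ι]
    (F : Pre I M ι) {f : M → N} {x : M} (hf : SA I f x) (a : ι) :
    F.D a (fun x => (f x, (1 : ℝ))) x = (F.D a f x, 0) := by
  have e : (fun x => (f x, (1 : ℝ))) =
      fun x => ContinuousLinearMap.inl ℝ N ℝ (f x) + (0, 1) := funext fun x => by simp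
  rw [e, D_def, Wz78.dv_add' (hf.clm _) contMDiffAt_const, dv_clm _ hf.md, dv_const]
  simp [D_def]

variable (X : Ends 𝔉 δ) (y : Pnt o r) (s : Sm I ζ) (p : ∀ a, Nice 𝔉.F0.toPre (n0 y ζ a))
include X

theorem n_α (a : Option κ) : Nice 𝔉.F0.toPre fun x => adcL (opL (y.α x a)) :=
  (((hs_iff X.ok).1 y.hα).1.clm (Grp76.pj o.m.A a)).clm (adcL ∘L opL)

omit X in
theorem D_eq (a : Option κ) (x : M) : 𝔉.F0.D a ζ x =
    (-adcL (o.A y.t a x)) (ζ x) + (n0 y ζ a x - adcL (opL (y.α x a)) (ζ x)) := by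
  simp only [n0, nab, ← Wz78.adcL_apply, map_add, _root_.add_apply, _root_.neg_apply, D_def]
  abel

include s p

theorem bdd : ∃ C, ∀ x, ‖ζ x‖ ≤ C := by
  have H := X.ok
  have su : Sm I (nr 1 ζ) := fun x => Dfl49.sa_nr one_pos (s x)
  obtain ⟨C, hC⟩ := decay X (p none)
  obtain ⟨K, hK⟩ := (X.cov' (X.R + 1)).exists_bound_of_continuousOn su.continuous.continuousOn
  have hδ := X.δ0
  refine ⟨|K| + |C| / δ, fun x => Dfl49.le_nr (ε := 1).trans ?_⟩
  have c0 : 0 ≤ |C| / δ := by positivity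
  by_cases hx : x ∈ ⋃ a, (X.P a).U (X.R + 1)
  swap
  · linarith [le_abs_self K, le_abs_self (nr 1 ζ x), (Real.norm_eq_abs _).symm.trans_le (hK x hx)]
  obtain ⟨a, hx⟩ := mem_iUnion.1 hx
  have h := X.okP a
  obtain ⟨t, z, ht, rfl⟩ := exists_pt h (lt_add_one _).le hx
  have hd : ∀ u, X.R + 1 ≤ u → HasDerivAt (fun u => nr 1 ζ ((X.P a).pt u z))
      ((X.P a).sg • 𝔉.G0.F.D none (nr 1 ζ) ((X.P a).pt u z)) u := fun u hu =>
    deriv_pt h le_rfl su (by linarith) z
  have h3 := image_norm_le_of_norm_deriv_right_le_deriv_boundary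
    (f := fun u => nr 1 ζ ((X.P a).pt u z) - nr 1 ζ ((X.P a).pt (X.R + 1) z))
    (a := X.R + 1) (b := t)
    (fun u hu => ((hd u hu.1).sub_const _).continuousAt.continuousWithinAt)
    (fun u hu => ((hd u hu.1).sub_const _).hasDerivWithinAt)
    (B := fun u => |C| / δ * (exp (-δ * (X.R + 1)) - exp (-δ * u))) (B' := fun u => |C| * exp (-δ * u))
    (by simp) (fun u => ((((hasDerivAt_id' u).const_mul (-δ)).exp.const_sub
      (exp (-δ * (X.R + 1)))).const_mul (|C| / δ)).congr_deriv (by field_simp))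
    (fun u hu => by
      have k : X.R < u := by linarith [hu.1]
      have k1 := Dfl49.D_nr 𝔉.F0.toPre (ε := 1) (a := none)
        (A := fun a x => adc (o.A y.t a x + opL (y.α x a))) one_pos (s ((X.P a).pt u z))
        (Wz78.adc_skw fun v w => by
          rw [_root_.add_apply, _root_.add_apply, inner_add_left, inner_add_right,
            (o.connA H.B y.t).sk, Wz78.g_skw (idx_mem (y.pα H _) _), neg_add])
      have k2 := hC ((X.P a).pt u z)
      rw [h.wt _ (pt_U h le_rfl k z), tm_pt h k.le, sg_sg] at k2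
      rw [norm_smul, show ‖(X.P a).sg‖ = 1 by rcases (X.P a).sg_cases with k | k <;> simp [k],
        one_mul, ← X.wt.toWtP.D, neg_mul]
      exact k1.trans (k2.trans (mul_le_mul_of_nonneg_right (le_abs_self C) (exp_pos _).le)))
    ⟨ht.le, le_rfl⟩
  have h4 := hK ((X.P a).pt (X.R + 1) z) fun k => by
    obtain ⟨a', k⟩ := mem_iUnion.1 k
    rcases eq_or_ne a' a with rfl | ne
    · have := k.2
      rw [tm_pt h (lt_add_one _).le, sg_sg] at this
      exact lt_irrefl _ this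
    · exact disjoint_left.1 (X.dis ne) (End.U_mono _ (lt_add_one _).le k)
        (pt_U h le_rfl (lt_add_one _) z)
  have h5 : exp (-δ * (X.R + 1)) ≤ 1 := exp_le_one_iff.2 (by nlinarith [X.R0])
  rw [Real.norm_eq_abs] at h3 h4
  nlinarith [le_abs_self K, le_abs_self (nr 1 ζ ((X.P a).pt (X.R + 1) z)), exp_pos (-δ * t),
    le_abs_self (nr 1 ζ ((X.P a).pt t z) - nr 1 ζ ((X.P a).pt (X.R + 1) z))]

theorem cb : 𝔉.F0.Cb ζ := by
  obtain ⟨C, hC⟩ := bdd X y s p
  have := cb_of_ode (F := 𝔉.F0.toPre) (v := fun x => (ζ x, (1 : ℝ)))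
    (L := fun a x => x1 _ (-adcL (o.A y.t a x) - adcL (opL (y.α x a))) + x2 _ (n0 y ζ a x))
    ((s.prodMk_space contMDiff_const).mdifferentiable (by simp)) (fun a x => by
      rw [D_pair _ (s x), D_eq y]
      simp only [_root_.add_apply, x1_apply, x2_apply, one_smul, Prod.mk_add_mk, add_zero,
        _root_.sub_apply]
      abel_nf)
    (fun a => Cb_add (Cb_clm _ (Cb_sub (Cb_clm (-adcL) (o.cAt y.t a)) (n_α X y a).1))
      (Cb_clm _ (p a).1)) (C := max C 1) fun x => by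
      rw [Prod.norm_mk, norm_one]; exact max_le_max_right _ (hC x)
  exact Cb_clm (ContinuousLinearMap.fst ℝ _ ℝ) this

omit s p in
theorem zz {V : Type} [NormedAddCommGroup V] [InnerProductSpace ℝ V] [CompleteSpace V] {f : M → V}
    (hf : Nice 𝔉.F0.toPre f) (a : X.A) (k : ℕ) : ZZ (X.P a).D.Z.toPre (hyperfilter ℕ : Filter ℕ)
      (fun n => win (X.P a).Y.M ((X.P a).sg * n) 1) k fun _ z => f ((X.P a).K.ψ z) := fun ε hε => by
  have h := X.okP a
  filter_upwards [hyp_top.eventually_gt_atTop (X.R + 1), ((tendsto_atTop_add_const_right _ (-1)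
    hyp_top).const_mul_atTop X.δ0).eventually (nice_tail X k hf ε hε)] with n hn k1
  have hi : ∀ z ∈ win (X.P a).Y.M ((X.P a).sg * n) 1, X.R < (X.P a).sg * z.2 := fun z hz => by
    linarith [(abs_lt.1 (mem_win.1 hz)).1]
  refine ⟨win_op _ _, (lb_iff ((fRel0 X.ok h).mono (win_op _ _) hi) fun _ _ => rfl).2
    (k1.sub (forall_mem_image.2 fun z hz => ?_))⟩
  rw [mem_ofPred_eq, h.wt _ (End3.mem_U h le_rfl (hi z hz)),
    (X.P a).K.tm_ψ z (End3.mem_src h le_rfl (hi z hz))]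
  exact mul_lt_mul_of_pos_left (by linarith [(abs_lt.1 (mem_win.1 hz)).1]) X.δ0

/-- the limit on an end -/
theorem lim (hl : X.Lit o R) (m : ∀ x, ζ x ∈ o.m.gS x) (a : X.A) : ∃ g,
    ParY (X.P a).D ((X.P a).sl o (R + 1) y.t) g ∧
      ∀ z, Tendsto (fun n : ℕ => ζ ((X.P a).pt n z)) (hyperfilter ℕ) (𝓝 (g z)) := by
  have H := X.ok
  have h := X.okP a
  have l := hl.lit a
  have hβ := adm_sl H h y.ht hl.le l
  obtain ⟨C, hC⟩ := bdd X y s p
  have hn : ∀ᶠ n : ℕ in hyperfilter ℕ, ∀ z ∈ win (X.P a).Y.M ((X.P a).sg * n) 1,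
      R < (X.P a).sg * z.2 := (hyp_top.eventually_ge_atTop (R + 1)).mono fun n hn z hz => by
    linarith [(abs_lt.1 (mem_win.1 hz)).1]
  obtain ⟨g, sg, pg, tg⟩ := Pj41.par_lim (F := (X.P a).D.F.toPre) (𝒰 := hyperfilter ℕ)
    (s := fun n => (X.P a).sg * n) (C := max C 1) one_pos (N := o.m.A × ℝ)
    (T := fun _ z => (ζ ((X.P a).K.ψ z), 1))
    (A := fun b z => x1 _ (adcL (o.W y.t 0 b ((X.P a).pt (R + 1) z))))
    (Z := fun b _ z => x2 _ (n0 y ζ b ((X.P a).K.ψ z)) - x1 _ (adcL (opL (y.α ((X.P a).K.ψ z) b))))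
    (fun b z => SA.clm _ (SA.clm _ (sm_slice (t := 0) (hβ.adm.conn.cc.sm b _))))
    (fun z => by rw [l.tmp _ y.ht, map_zero, map_zero])
    (fun k b => ((zz X (p b) a k).clm _).sub (((zz X (((hs_iff X.ok).1 y.hα).1.clm
      (Grp76.pj o.m.A b)) a k).clm (adcL ∘L opL)).clm _))
    (hn.mono fun n hn z hz => by
      have k := hl.le.trans_lt (hn z hz)
      have f := fRel0 H h
      have sz := f.sm k (s _)
      refine ⟨⟨sz.prodMk_space contMDiffAt_const, by
        rw [Prod.norm_mk, norm_one]; exact max_le_max_right _ (hC _)⟩, fun b => ?_⟩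
      have e : (X.P a).pt ((X.P a).sg * z.2) z.1 = (X.P a).K.ψ z := by rw [End.pt, sg_sg]
      rw [D_pair _ sz, ← (lit_eq l y.ht (hn z hz) z.1).2.2.2.1, e,
        W0_end H h y.ht (End3.mem_U h le_rfl k)]
      refine (congrArg (·, (0 : ℝ)) ((f.D k b (.of_forall fun _ => rfl)).trans (D_eq y b _))).trans ?_
      simp only [_root_.sub_apply, x1_apply, x2_apply, one_smul, Prod.mk_sub_mk, sub_zero,
        _root_.neg_apply]
      abel_nf)
  have t1 := fun z => (continuous_fst.tendsto _).comp (tg z)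
  refine ⟨fun z => (g z).1, Clr59.par_slice (β := (X.P a).sl o (R + 1) y.t) (X := fun z => (g z.1).1)
    (sm_fst ((ContinuousLinearMap.fst ℝ _ ℝ).contMDiff.comp sg)) (fun z => ?_) (fun b z => ?_) 0, t1⟩
  · refine (Submodule.closed_of_finiteDimensional _).mem_of_tendsto (t1 z.1)
      ((hyp_top.eventually_gt_atTop R).mono fun n hn => ?_)
    obtain ⟨h1, h2, h3, -⟩ := lit_eq l y.ht hn z.1
    obtain ⟨g1, g2, g3, g4, g5⟩ := m ((X.P a).pt n z.1)
    exact ⟨g1, h1 ▸ g2, g3, fun i => h2 i ▸ g4 i, h3 ▸ g5⟩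
  · have := congrArg Prod.fst (pg b z)
    exact (congrArg (· + _) (dv_clm (ContinuousLinearMap.fst ℝ _ ℝ) (SA.md (sm_fst sg z)))).trans this

/-- **END** -/
theorem endL (hl : X.Lit o R) (m : ∀ x, o.Pg x (ζ x) = ζ x) (sξ : Sm I ξ)
    (mξ : ∀ x, o.Pg x (ξ x) = ξ x) (pξ : ∀ a x, n0 y ξ a x = 0) (nξ : ∀ x ∈ 𝔉.Om, ‖ξ x‖ = 4)
    (hz : ∀ a, X.Act a → dz (X.P a).D ((X.P a).sl o (R + 1) y.t) = 1)
    (one : ∀ a a', X.Act a → X.Act a' → a = a') : ∃ c : ℝ, ζ - c • ξ ∈ Hs 𝔉.F0.toPre o.Pg := by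
  have H := X.ok
  have p0 : ∀ a, Nice 𝔉.F0.toPre (n0 y ξ a) := fun a => (funext (pξ a) : n0 y ξ a = fun _ => 0) ▸
    .of_hcs contMDiff_const HasCompactSupport.zero
  have sc : ∀ c : ℝ, Sm I (c • ξ) := fun c x => SA.smul contMDiffAt_const (sξ x)
  have md := fun {ζ : M → o.m.A} (s : Sm I ζ) x => (SA.md (s x) : MDifferentiableAt I _ ζ x)
  obtain ⟨c, hc⟩ : ∃ c : ℝ, ∀ a, X.Act a → ∀ z,
      Tendsto (fun n : ℕ => (ζ - c • ξ) ((X.P a).pt n z)) (hyperfilter ℕ) (𝓝 0) := by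
    by_cases k : ∃ a, X.Act a
    swap
    · exact ⟨0, fun a ha => (k ⟨a, ha⟩).elim⟩
    obtain ⟨a, ha⟩ := k
    obtain ⟨g, g1, g2⟩ := lim X y s p hl (fun x => ((Pg_iff H x _).1 (m x)).1) a
    obtain ⟨g', g3, g4⟩ := lim X y sξ p0 hl (fun x => ((Pg_iff H x _).1 (mξ x)).1) a
    have n : ∀ z, ‖g' z‖ = 4 := fun z => tendsto_nhds_unique (g4 z).norm (tendsto_const_nhds.congr'
      ((hyp_top.eventually_gt_atTop X.R).mono fun n hn =>
        (nξ _ (ha (pt_U (X.okP a) le_rfl hn z))).symm))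
    by_cases k : g' = 0
    · exact ⟨0, fun a' ha' => one _ _ ha ha' ▸ fun z => absurd (n z) (by simp [k])⟩
    obtain ⟨c, hc⟩ := ((finrank_eq_one_iff_of_nonzero' (⟨g', g3⟩ : Clr59.parS _ _) fun e =>
      k (congrArg Subtype.val e)).1 (Clr59.dz_def.symm.trans (hz a ha)) ⟨g, g1⟩).imp
      fun _ => congrArg Subtype.val
    replace hc : c • g' = g := hc
    refine ⟨c, fun a' ha' => one _ _ ha ha' ▸ fun z => ?_⟩
    simpa [← hc] using (g2 z).sub ((g4 z).const_smul c)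
  have sf : Sm I (ζ - c • ξ) := s.sub (sc c)
  have pf : ∀ a, Nice 𝔉.F0.toPre (n0 y (ζ - c • ξ) a) := fun a => by
    rw [show n0 y (ζ - c • ξ) a = n0 y ζ a from funext fun x => by
      rw [sub_eq_add_neg, ← neg_smul, n0_add (md s x) (md (sc _) x),
        n0_smul (md sξ x), pξ, smul_zero, add_zero]]
    exact p a
  have nb := fun a => (pf a).sub ((n_α X y a).bil' (.id ℝ _) (cb X y sf pf))
  have mf : ∀ x, o.Pg x ((ζ - c • ξ) x) = (ζ - c • ξ) x := fun x => by
    simp only [Pi.sub_apply, Pi.smul_apply, map_sub, map_smul, m, mξ]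
  refine ⟨c, (hs_iff H).2 ⟨Grp76.nice_of_fl H.tame.choose_spec sf (Grp76.fl_of_lin sf
    (hardy X hl.le sf (nb none) (fun a x hx => ?_) fun a z ε hε => ?_)
    (fun a => Cb_clm (-adcL) (o.cAt y.t a)) nb (D_eq y)), mf⟩⟩
  · have h1 := W0_end H (X.okP a) (o := o) y.ht (End.U_mono _ hl.le hx) none
    obtain ⟨s, z, hs, rfl⟩ := exists_pt (X.okP a) hl.le hx
    rw [(lit_eq (hl.lit a) y.ht hs z).2.2.2.1, (hl.lit a).tmp _ y.ht] at h1
    rw [D_eq y, ← h1, map_zero, neg_zero, _root_.zero_apply, zero_add]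
    rfl
  · by_cases k : X.Act a
    · exact hyp_top.frequently (((hc a k z).norm.eventually (ge_mem_nhds (by simpa))).frequently)
    · refine ((eventually_gt_atTop X.R).mono fun s hs => ?_).frequently
      rw [((Pg_iff H _ _).1 (mf _)).2 fun k' => k (act_of X (pt_U (X.okP a) le_rfl hs z) k'),
        norm_zero]
      exact hε.le

end Crest.Agent.X212.Ng52
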