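import Crest.Agent.X212.Num57.Nti
import Crest.Agent.X212.Sym93.Main
import Crest.Agent.X212.Abx52.Ng1

/-! Row 212 (helper52): the end of the chart restricted to the inside of a wall. -/

set_option autoImplicit false
set_option linter.unusedSectionVars false
set_option maxHeartbeats 400000
noncomputable section
open scoped Manifold ContDiff Topology
open MeasureTheory Set Function Filter

namespace Crest.Agent.X212.Ng52
open An M Nd18 Mod61 Nk89 Cht98 Rf65 Pte3 Nt66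
open An.Job (SolOn)

variable {Wi : Type} {X : Mf 4} {A κ lam : Type} [Fintype A] [Fintype κ] [Fintype lam]
  [DecidableEq lam] {M : Mark X A κ} {W : World M} {N : ML M lam} {Λ : Lns W N}
  {A' h : Type} [Fintype A'] [DecidableEq A'] [Fintype h] {r n : ℕ}
  {J : Job Wi Λ A' h r n} {c : M.Cl} {σ : Cel A'} {δ : ℝ}
  {p : Prt A A' h} {U : Type} [Fintype U] {b : Bp J c} {E : EC b p U δ} {y : J.Obc c}
  {x : Pnt E.o r} {ψ : E.K} {q : Wi →₀ ℝ} {a : A} {P' : Set (Reg A)}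

theorem edP_one {i : Ed c} {s : Bool} (k : i ∈ EdP c {hp a s}) : i.1.1 = a ∧ i.2 = s := by
  obtain ⟨_, rfl, k⟩ := k
  by_cases e : i.1.1 = a
  · exact ⟨e, by simpa [hp, e, eq_comm] using k⟩
  · simp [hp, e] at k

variable (H : CS σ E) (h1 : {hp a false} ⊆ p.P) (h2 : P' ⊆ {hp a false})

/-- the ends of the restricted family -/
abbrev eI : Ends (b.F (sp p {hp a false} P' ∅) U δ) δ :=
  (Nti57.pg_sp H.toPG h1 h2).ends U b H.eo.d0 H.eo.d1

theorem act_I {i : Ed c} (k : (eI H h1 h2).Act i) : i.1.1 = a ∧ i.2 = false :=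
  edP_one (((Nti57.pg_sp H.toPG h1 h2).act_iff _ _).1 k)

theorem one_I (i i' : (eI H h1 h2).A) (k : (eI H h1 h2).Act i) (k' : (eI H h1 h2).Act i') : i = i' :=
  Prod.ext (Subtype.ext ((act_I H h1 h2 k).1.trans (act_I H h1 h2 k').1.symm))
    ((act_I H h1 h2 k).2.trans (act_I H h1 h2 k').2.symm)

theorem lit_I (z : E.o.Φ0 = 0) : (eI H h1 h2).Lit (rf E x.t {hp a false} P' ∅) E.R :=
  ⟨H.eo.R5, (Nti57.ok_res H z x.ht ∅).lit⟩

theorem dz_I (S : SolOn p σ q y) (R : E.RepC y x ψ) (z : E.o.Φ0 = 0)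
    (hz : dz (J.xs a).D (y.β a false) = 1) (i : (eI H h1 h2).A) (k : (eI H h1 h2).Act i) :
    dz ((eI H h1 h2).P i).D
      (((eI H h1 h2).P i).sl (rf E x.t {hp a false} P' ∅) (E.R + 1) x.t) = 1 := by
  have e := Sym93.dz_sl H S R (i := i)
    (let ⟨π, k1, k2⟩ := ((Nti57.pg_sp H.toPG h1 h2).act_iff _ _).1 k; ⟨π, h1 k1, k2⟩)
  rw [← Nti57.sl_rf (P := {hp a false}) (P' := P') H z x.ht ∅ i
    (H.eo.R5.trans_lt (lt_add_one _)) x.ht] at e
  obtain ⟨k1, k2⟩ := act_I H h1 h2 k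
  obtain ⟨⟨i, hi⟩, s⟩ := i
  obtain rfl : i = a := k1
  obtain rfl : s = false := k2
  exact e.trans hz

end Crest.Agent.X212.Ng52
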