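import Crest.Agent.X212.Nta64.Job

/-!
# Row 212, RF-NT: the assembly from the leaves
-/

set_option autoImplicit false
set_option linter.unusedSectionVars false
noncomputable section
open scoped Manifold ContDiff Topology InnerProductSpace
open MeasureTheory Set Function Filter

namespace Crest.Agent.X212.Ntb52
open An M Nd18 Mod61 Rf65 Pte3 Sob92 Nt66 Hp13.Rt G75 Ins26 Jb7
open An.Job (Sol)

theorem idx_cut {Z α V : Type} [Fintype α] [NormedAddCommGroup V] [InnerProductSpace ℝ V]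
    (S : α → α → ℝ) {O O' : Set Z} (h : O ⊆ O') (g : Z → CL V V) (z : Z) (v : Fm α V)
    (e : idx S (O.indicator g z) v = v) : idx S (O'.indicator g z) v = v ∧ (z ∉ O → v = 0) := by
  by_cases k : z ∈ O
  · rw [indicator_of_mem k] at e
    exact ⟨by rwa [indicator_of_mem (h k)], fun m => (m k).elim⟩
  · have : v = 0 := by
      rw [← e, indicator_of_notMem k]
      ext a
      simp [Wz78.idx_apply]
    exact ⟨by rw [this, map_zero], fun _ => this⟩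

variable {κ lam : Type} [Fintype κ] [Fintype lam] [DecidableEq lam] {Lm : LM κ lam}

section
variable {S : Scene Lm} {D : S.Dat} {i : S.L} {Wi : Type} {r n : ℕ}
  {J : Job Wi (D.Λ i) (S.A ⊕ Unit) S.ls r n} {c : S.M.Cl} {δ : ℝ} {X : Finset S.A}
  {σ : Cel (S.A ⊕ Unit)} {Adm : (Wi →₀ ℝ) → Prop} {n₀ : ℤ} {q : Wi →₀ ℝ} {y : J.Obc c} {l : S.ls}
  {b : Bp J c} {E : EW J c X σ l b δ} {x : Pnt E.o r} {ψ : E.K}
  (C : Cx X σ Adm n₀ q y l E x ψ)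

open Classical in
/-- onto modulo the row of the cut -/
def On : Prop := ∀ f, E.Map q f → Surjective ((fderiv ℝ f (x.pt 8, ψ)).coprod (tg E C.il))

/-- the conclusion -/
def Fn (_ : Cx X σ Adm n₀ q y l E x ψ) : Prop :=
  ∃ qq : ℕ → Wi →₀ ℝ, St.Cv atTop qq q ∧ ∀ᶠ k in atTop, Sol σ (qq k) y ∧ E.Reg (qq k) x ψ

theorem p1_cut (z : (D.W.Z c).M) (v : Fm (Option κ) E.o.m.A)
    (e : (rf E x.t {hp l.1 false} {hp l.1 false} ∅).P1 z v = v) :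
    E.o.P1 z v = v ∧ (z ∉ Nt66.Om D c l → v = 0) :=
  idx_cut _ (biUnion_subset_biUnion_left sub_in) E.o.m.pg z v e

variable [DecidableEq (pW J c (shX S X) σ l.1).H] {α : (D.W.Z c).M → Fm (Option κ) E.o.m.A}
  (hα : α ∈ Mod61.Hs (b.F (pW J c (shX S X) σ l.1) (UW J c l) δ).F0.toPre
    (rf E x.t {hp l.1 false} {hp l.1 false} ∅).P1)
include C hα

theorem hs_a : α ∈ Mod61.Hs (b.F (pW J c (shX S X) σ l.1) (UW J c l) δ).F0.toPre E.o.P1 :=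
  hs_ex (P := (rf E x.t {hp l.1 false} {hp l.1 false} ∅).P1) (Q := E.o.P1) C.cs.F.sup
    (fun z v e => (p1_cut (E := E) (x := x) z v e).1) hα

theorem off_a (z) (hz : z ∉ Nt66.Om D c l) : α z = 0 := (p1_cut (E := E) (x := x) z _
  (Hs_proj (p := (rf E x.t {hp l.1 false} {hp l.1 false} ∅).P1) C.cs.F.sup hα z)).2 hz

theorem h3_at (la : LocA C) {g} (hg : RepF (e0 b X σ l δ _) g)
    (h0 : (C.L0 g (ofV _ 9 _ α, 0, 0)).2.1 = 0) {f} (hf : E.Map q f) :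
    ∃ v, fderiv ℝ f (x.pt 8, ψ) ((ofV _ 9 _ α, 0, 0), 0) = tg E C.il v :=
  have R := la f hf g hg (ofV _ 9 (rf E x.t {hp l.1 false} {hp l.1 false} ∅).P1 α) (ofV _ 9 E.o.P1 α)
    ((val_ofV (hs_a C hα) (by norm_num)).trans (val_ofV hα (by norm_num)).symm)
  ⟨_, Nta64.eq_tg C.cs (i := C.il) R.vD (R.vC.trans ((congrArg _ h0).trans val_zero)) R.vS R.vT R.vN⟩

theorem h5_at (rc : Rcj C) {ξ} (hξ : AbAt C ξ) (ng : NG (J.G c y.s).F x.cfg (Nt66.Om D c l) ξ fun z =>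
      idx ((b.F (pW J c (shX S X) σ l.1) (UW J c l) δ).S x.t z) (.id ℝ _) (α z))
    (pr : (J.cut c l).H (J.B c) E.o.m →ₗ[ℝ] Fin 2 → ℝ) {χ : Fin 2 → ℝ}
    (p2 : ∀ ν ∈ E.o.m.gS (J.cut c l).x0, (∀ u : ℝ, ν ≠ u • ξ (J.cut c l).x0) →
      ∃ a b w, χ ⬝ᵥ pr (el E y.s l a b w ν (ψ C.il)) ≠ 0) :
    ∃ q' T, Nt66.Cl J y.s l q' ∧ sg y.s l q' x = 0 ∧
      HasDerivAt (fun u => sg y.s l q' (ln x (hs_a C hα) (zero_mem _) u)) T 0 ∧
      χ ⬝ᵥ pr (T (ψ C.il)) ≠ 0 :=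
  (rc ξ hξ α (hs_a C hα) (off_a C hα) ng).elim fun ν n => (p2 ν n.1 n.2.1).elim fun a1 k =>
    k.elim fun b1 k => k.elim fun w k => (n.2.2 a1 b1 w).elim fun q' m =>
      ⟨q', el E y.s l a1 b1 w ν, m.1, m.2.1, m.2.2, k⟩

omit hα in
theorem fin_at (so : Sop C) {q'} (k : q' ∈ Nta64.Pl x y.s l)
    (e : ∀ᶠ ε in 𝓝[≠] (0 : ℝ), E.Reg (q + ε • q') x ψ) : Fn C :=
  let ⟨t, t1, t2⟩ := Nta64.cv_seq q q' e
  ⟨_, t1, t2.mono fun j e => ⟨so _ (Cl_smul k.1 _)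
    (DFunLike.congr_fun (Submodule.smul_mem (Nta64.Pl x y.s l) (t j) k).2 _), e⟩⟩

omit hα [DecidableEq (pW J c (shX S X) σ l.1).H] in
theorem fn_at (h1 : On C) (nm : Num C) (ix : Idx2 C) (ab : Abx C) (di : Dir C) (ke : Ker C)
    (so : Sop C) (rw : Rwj C) (rc : Rcj C) (la : LocA C) : Fn C := by
  classical
  obtain ⟨ξ, hξ⟩ := ab
  obtain ⟨pr, p1, p2⟩ := rw ξ hξ
  obtain ⟨g, hg, -⟩ := ix.2.2
  obtain ⟨a, ha⟩ := ke ix (by have := (di ix).1; have := nm.2.1; omega) nm.1 ξ hξ.1 g hg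
  obtain ⟨q', k, e⟩ := Nta64.core (E := E) C.cs x ψ (i := C.il) C.θ h1 pr p1 a (fun t => hs_a C (ha t).1)
    (fun f hf t => h3_at C (ha t).1 la hg (ha t).2.1 hf) fun t ht χ hχ =>
      h5_at C (ha t).1 rc hξ ((ha t).2.2 ht) pr (p2 χ hχ)
  exact fin_at C so k e

end

variable {P Q : ∀ {S : Scene Lm} {D : S.Dat} {i Wi r n} {J : Job Wi (D.Λ i) (S.A ⊕ Unit) S.ls r n}
    {c : S.M.Cl} {δ : ℝ} {X σ Adm n₀ q} {y : J.Obc c} {l b} {E : EW J c X σ l b δ} {x ψ},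
    Cx X σ Adm n₀ q y l E x ψ → Prop}

theorem allG_and {P Q : ∀ (S : Scene Lm) (D : S.Dat) i Wi r n
    (_ : Job Wi (D.Λ i) (S.A ⊕ Unit) S.ls r n) (_ : Finset S.A) (_ : ℤ) (_ : S.M.Cl) (_ : ℝ)
    (_ : (Wi →₀ ℝ) → Prop), Prop} (h : AllG Lm P) (h' : AllG Lm Q) :
    AllG Lm fun S D i Wi r n J X n₀ c δ Adm =>
      P S D i Wi r n J X n₀ c δ Adm ∧ Q S D i Wi r n J X n₀ c δ Adm :=
  fun S D i Wi r n J X a₀ j n₀ T c g k pj =>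
    let ⟨d, d0, a⟩ := h S D i Wi r n J X a₀ j n₀ T c g k pj
    let ⟨d', d0', a'⟩ := h' S D i Wi r n J X a₀ j n₀ T c g k pj
    ⟨min d d', lt_min d0 d0', fun δ m => (a δ ⟨m.1, m.2.trans (min_le_left _ _)⟩).and
      (a' δ ⟨m.1, m.2.trans (min_le_right _ _)⟩)⟩

theorem nf_mp (h : NfStmt Lm fun C => P C → Q C) (h' : NfStmt Lm P) : NfStmt Lm Q :=
  fun S D i Wi r n J X a₀ j n₀ T c g k pj =>
    let ⟨d, d0, a⟩ := allG_and h h' S D i Wi r n J X a₀ j n₀ T c g k pj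
    ⟨d, d0, fun δ m => (a δ m).mono fun _ t σ q y l b E x ψ C =>
      t.1 σ q y l b E x ψ C (t.2 σ q y l b E x ψ C)⟩

theorem nf_of (h : ∀ {S : Scene Lm} {D : S.Dat} {i Wi r n} {J : Job Wi (D.Λ i) (S.A ⊕ Unit) S.ls r n}
    {c : S.M.Cl} {δ : ℝ} {X σ Adm n₀ q} {y : J.Obc c} {l b} {E : EW J c X σ l b δ} {x ψ}
    (C : Cx X σ Adm n₀ q y l E x ψ), P C) : NfStmt Lm P := fun _ _ _ _ _ _ _ _ _ _ _ _ _ _ _ _ =>
  ⟨1, one_pos, fun _ _ => .of fun _ _ _ _ _ _ _ _ _ C => h C⟩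

theorem nt_of (cx : CxStmt Lm) (h : NfStmt Lm Fn) : NtStmt Lm :=
  fun S D i Wi r n J X a₀ j n₀ T c g k pj =>
    let ⟨d, d0, a⟩ := allG_and cx h S D i Wi r n J X a₀ j n₀ T c g k pj
    ⟨d, d0, fun δ m => (a δ m).mono fun _ t σ ls H lx q4 q y l a1 a2 a3 a4 a5 _ b E x ψ gd =>
      let ⟨k, C⟩ := t.1 σ ls H lx q4 q y l a1 a2 a3 a4 a5
      t.2 σ q y ⟨l, k⟩ b E x ψ (C b E x ψ gd)⟩

/-- **RF-NT** from the leaves -/
theorem nt (cx : CxStmt Lm) (h1 : NfStmt Lm On) (nm : NfStmt Lm Num) (ix : NfStmt Lm Idx2)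
    (ab : NfStmt Lm Abx) (di : NfStmt Lm Dir) (ke : NfStmt Lm Ker) (so : NfStmt Lm Sop)
    (rw : NfStmt Lm Rwj) (rc : NfStmt Lm Rcj) (la : NfStmt Lm LocA) : NtStmt Lm :=
  nt_of cx (nf_mp (nf_mp (nf_mp (nf_mp (nf_mp (nf_mp (nf_mp (nf_mp (nf_mp (nf_mp (nf_of fn_at)
    h1) nm) ix) ab) di) ke) so) rw) rc) la)

end Crest.Agent.X212.Ntb52
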